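import Vale.Agent.P200.Avg.Model
import Vale.Agent.P200.Quad.CI
import Vale.Agent.P200.Quad.Reduce
import Vale.Agent.P200.LPP3.Few

/-!
Hilbert functions of ideals over a regular sequence are averages of monomial ones.
-/

namespace Vale.Agent.P200.Avg

open MvPolynomial Module

theorem exists_average {K : Type*} [Field K] {n c : ℕ} (hcn : c ≤ n) {a : Fin c → ℕ}
    (ha : ∀ i, 0 < a i) {f : Fin c → MvPolynomial (Fin n) K}
    (hf : ∀ i, (f i).IsHomogeneous (a i)) (hreg : RegList ⊥ (List.ofFn f)) :
    ∃ N : ℕ, 0 < N ∧ ∀ I : Ideal (MvPolynomial (Fin n) K), (∀ i, f i ∈ I) →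
      ∃ s : Fin N → Set (Fin n →₀ ℕ), (∀ j i, Finsupp.single (Fin.castLE hcn i) (a i) ∈ s j) ∧
        ∀ d, ∑ j, finrank K (degPart d (Ideal.span ((fun e => monomial e (1 : K)) '' s j))) =
          N * finrank K (degPart d I) := by
  classical
  obtain ⟨m, rfl⟩ : ∃ m, n = c + m := ⟨n - c, by omega⟩
  let L := AlgebraicClosure K
  let φ := map (σ := Fin (c + m)) (algebraMap K L)
  have hreg' : RegList ⊥ (List.ofFn fun i => φ (f i)) := by
    have := Quad.regList_extI (L := L) _ _ hreg
    rwa [extI, Ideal.map_bot, List.map_ofFn] at this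
  have hpos : ∀ g ∈ List.ofFn (fun i => φ (f i)), HomogPos g := by
    intro g hg
    obtain ⟨i, rfl⟩ := List.mem_ofFn.1 hg
    exact ⟨a i, ha i, (hf i).map _⟩
  obtain ⟨ls, hls, hregls, -⟩ := exists_linear_extension hpos hreg' m (by simp)
  let F : Fin (c + m) → MvPolynomial (Fin (c + m)) L := Fin.append (fun i => φ (f i)) ls
  let b : Fin (c + m) → ℕ := Fin.append a fun _ => 1
  have hF : ∀ k, (F k).IsHomogeneous (b k) := by
    intro k
    refine Fin.addCases (fun i => ?_) (fun i => ?_) k
    · simp only [F, b, Fin.append_left]; exact (hf i).map _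
    · simp only [F, b, Fin.append_right]; exact hls i
  have hb : ∀ k, 0 < b k := by
    intro k
    refine Fin.addCases (fun i => ?_) (fun i => ?_) k
    · simp only [b, Fin.append_left]; exact ha i
    · simp only [b, Fin.append_right]; exact one_pos
  have hregF : RegList ⊥ ((List.finRange (c + m)).map F) := by
    rwa [← List.ofFn_eq_map, List.ofFn_fin_append]
  have hsyz := Quad.syzygy F (List.finRange (c + m)) (List.nodup_finRange _) (List.mem_finRange)
    (fun k => ⟨b k, hb k, hF k⟩) hregF
  obtain ⟨ι, _, _, _, P, hP, hc, hp⟩ := exists_commuting (c + m) b F hb hF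
  refine ⟨Fintype.card ι, Fintype.card_pos, fun I hfI => ?_⟩
  obtain ⟨s, hup, hpow, hcard⟩ := exists_models (hc := hc) hP hb hp hsyz hF (extI (L := L) I)
  let ε := Fintype.equivFin ι
  refine ⟨fun j => s (ε.symm j), fun j i => ?_, fun d => ?_⟩
  · have h1 : F (Fin.castAdd m i) ∈ extI (L := L) I := by
      simp only [F, Fin.append_left]
      exact Ideal.mem_map_of_mem _ (hfI i)
    have h2 := hpow (ε.symm j) _ h1
    simp only [b, Fin.append_left] at h2
    exact h2
  · rw [← finrank_degPart_extI (L := L) I d, ← hcard d,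
      ← Equiv.sum_comp ε.symm fun j => Nat.card {e : Fin (c + m) →₀ ℕ // e.degree = d ∧ e ∈ s j}]
    exact Finset.sum_congr rfl fun j _ => finrank_monomialIdeal _ (hup _) d

end Vale.Agent.P200.Avg
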