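import Vale.Agent.P200.Avg.Rep
import Vale.Agent.P200.Basic

/-!
Commuting matrices of linear forms whose powers are the forms of a regular sequence act freely:
substituting them for the variables is bijective in every degree.
-/

namespace Vale.Agent.P200.Avg

open MvPolynomial Matrix Module

set_option linter.unusedSectionVars false

variable {L : Type*} [Field L] {n : ℕ} {ι : Type} [Fintype ι] [DecidableEq ι]

section syzygy

variable (P : Fin n → Matrix ι ι (MvPolynomial (Fin n) L)) (f : Fin n → MvPolynomial (Fin n) L)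

/-- Combinations of the images of the first `k` matrices. -/
noncomputable def lowImg (k : ℕ) : Submodule (MvPolynomial (Fin n) L) (ι → MvPolynomial (Fin n) L) :=
  ⨆ (j : Fin n) (_ : (j : ℕ) < k), LinearMap.range (P j).mulVecLin

/-- The multiples of the forms. -/
noncomputable def formImg : Submodule (MvPolynomial (Fin n) L) (ι → MvPolynomial (Fin n) L) :=
  ⨆ l, LinearMap.range (f l • (LinearMap.id :
    (ι → MvPolynomial (Fin n) L) →ₗ[MvPolynomial (Fin n) L] ι → MvPolynomial (Fin n) L))

variable {P f}

lemma mem_formImg_smul (l : Fin n) (v : ι → MvPolynomial (Fin n) L) : f l • v ∈ formImg f :=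
  Submodule.mem_iSup_of_mem l ⟨v, rfl⟩

lemma mem_formImg_iff {v : ι → MvPolynomial (Fin n) L} :
    v ∈ formImg f ↔ ∃ u : Fin n → ι → MvPolynomial (Fin n) L, ∑ l, f l • u l = v := by
  rw [formImg, Submodule.mem_iSup_iff_exists_finsupp]
  constructor
  · rintro ⟨g, hg, rfl⟩
    choose u hu using fun l => hg l
    refine ⟨u, ?_⟩
    rw [Finsupp.sum_fintype g (fun _ x => x) (fun _ => rfl)]
    exact Finset.sum_congr rfl fun l _ => hu l
  · rintro ⟨u, rfl⟩
    refine ⟨Finsupp.equivFunOnFinite.symm fun l => f l • u l, fun l => ⟨u l, rfl⟩, ?_⟩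
    rw [Finsupp.sum_fintype _ (fun _ x => x) (fun _ => rfl)]
    rfl

lemma mem_formImg_of_forall {v : ι → MvPolynomial (Fin n) L}
    (h : ∀ i, v i ∈ Ideal.span (Set.range f)) : v ∈ formImg f := by
  rw [pi_eq_sum_univ' v]
  refine sum_mem fun i _ => ?_
  obtain ⟨g, hg⟩ := (Submodule.mem_span_range_iff_exists_fun _).1 (h i)
  rw [← hg, Finset.sum_smul]
  exact sum_mem fun l _ => by
    rw [smul_assoc, smul_comm]
    exact mem_formImg_smul l _

lemma mem_lowImg (j : Fin n) {k : ℕ} (hj : (j : ℕ) < k) (v : ι → MvPolynomial (Fin n) L) :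
    P j *ᵥ v ∈ lowImg P k :=
  Submodule.mem_iSup_of_mem j (Submodule.mem_iSup_of_mem hj ⟨v, rfl⟩)

lemma lowImg_succ_le (k : Fin n) :
    lowImg P ((k : ℕ) + 1) ≤ lowImg P k ⊔ LinearMap.range (P k).mulVecLin := by
  refine iSup₂_le fun j hj => ?_
  rcases Nat.lt_succ_iff_lt_or_eq.1 hj with h | h
  · exact le_sup_of_le_left (le_iSup₂ (f := fun (i : Fin n) (_ : (i : ℕ) < k) =>
      LinearMap.range (P i).mulVecLin) j h)
  · rw [Fin.ext h]; exact le_sup_right

lemma lowImg_mono {k k' : ℕ} (h : k ≤ k') : lowImg P k ≤ lowImg P k' :=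
  iSup₂_le fun j hj => fun _ hx => Submodule.mem_iSup_of_mem j
    (Submodule.mem_iSup_of_mem (lt_of_lt_of_le hj h) hx)

variable (hc : ∀ j k, P j * P k = P k * P j)

include hc in
lemma pow_mulVec_lowImg (i : Fin n) (m : ℕ) {k : ℕ} {v : ι → MvPolynomial (Fin n) L}
    (hv : v ∈ lowImg P k) : (P i ^ m) *ᵥ v ∈ lowImg P k := by
  have hle : lowImg P k ≤ (lowImg P k).comap (P i ^ m).mulVecLin := by
    refine iSup₂_le fun j hj => ?_
    rintro _ ⟨u, rfl⟩
    rw [Submodule.mem_comap, Matrix.mulVecLin_apply, Matrix.mulVecLin_apply, Matrix.mulVec_mulVec,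
      show P i ^ m * P j = P j * P i ^ m from Commute.pow_left (hc i j) m, ← Matrix.mulVec_mulVec]
    exact mem_lowImg j hj _
  exact hle hv

variable {a : Fin n → ℕ} (ha : ∀ k, 0 < a k)
  (hp : ∀ k, P k ^ a k = f k • (1 : Matrix ι ι (MvPolynomial (Fin n) L)))
  (hsyz : ∀ w : Fin n → MvPolynomial (Fin n) L, ∑ l, f l * w l = 0 →
    ∀ l, w l ∈ Ideal.span (Set.range f))

include hc ha hp hsyz in
/-- The elimination: coefficients of the forms in a combination of the first `k` images. -/
lemma coeff_mem : ∀ k ≤ n, ∀ w : Fin n → ι → MvPolynomial (Fin n) L,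
    ∑ l, f l • w l ∈ lowImg P k → ∀ l : Fin n, k ≤ (l : ℕ) → w l ∈ formImg f ⊔ lowImg P k := by
  intro k
  induction k with
  | zero =>
    intro _ w hw l _
    have h0 : ∑ l, f l • w l = 0 := by
      rw [show lowImg P 0 = ⊥ by simp [lowImg]] at hw
      exact (Submodule.mem_bot _).1 hw
    refine Submodule.mem_sup_left (mem_formImg_of_forall fun i => hsyz (fun l => w l i) ?_ l)
    simpa using congrFun h0 i
  | succ k ih =>
    intro hk w hw l hl
    let k' : Fin n := ⟨k, hk⟩
    obtain ⟨r, hr, _, ⟨y, rfl⟩, hry⟩ := Submodule.mem_sup.1 (lowImg_succ_le k' hw)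
    rw [Matrix.mulVecLin_apply] at hry
    set e := a k' - 1
    have he : P k' ^ e * P k' = f k' • (1 : Matrix ι ι (MvPolynomial (Fin n) L)) := by
      rw [← pow_succ, show e + 1 = a k' by have := ha k'; omega, hp]
    have hz : ∑ m, f m • ((P k' ^ e) *ᵥ w m) - f k' • y ∈ lowImg P k := by
      have h1 := congrArg ((P k' ^ e) *ᵥ ·) hry
      simp only [Matrix.mulVec_add, Matrix.mulVec_sum, Matrix.mulVec_smul, Matrix.mulVec_mulVec, he,
        Matrix.smul_mulVec, Matrix.one_mulVec] at h1
      rw [← h1, add_sub_cancel_right]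
      exact pow_mulVec_lowImg hc _ _ hr
    have h2 := ih (by omega) (fun m => (P k' ^ e) *ᵥ w m - if m = k' then y else 0) (by
      simpa [smul_sub, Finset.sum_sub_distrib, smul_ite] using hz) k' le_rfl
    rw [if_pos rfl] at h2
    obtain ⟨F, hF, R, hR, hFR⟩ := Submodule.mem_sup.1 h2
    obtain ⟨u, rfl⟩ := mem_formImg_iff.1 hF
    have h3 : ∑ m, f m • (w m + (P k' *ᵥ u m) - if m = k' then w k' else 0) ∈ lowImg P k := by
      have hy : y = (P k' ^ e) *ᵥ w k' - ∑ m, f m • u m - R := by
        rw [sub_sub, hFR]; abel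
      have hPy : P k' *ᵥ y = f k' • w k' - ∑ m, f m • (P k' *ᵥ u m) - P k' *ᵥ R := by
        rw [hy, Matrix.mulVec_sub, Matrix.mulVec_sub, Matrix.mulVec_sum, Matrix.mulVec_mulVec,
          ← (Commute.pow_self (P k') e).eq, he, Matrix.smul_mulVec, Matrix.one_mulVec]
        simp only [Matrix.mulVec_smul]
      have hcalc : ∑ m, f m • (w m + (P k' *ᵥ u m) - if m = k' then w k' else 0) =
          r - P k' *ᵥ R := by
        simp only [smul_sub, smul_add, smul_ite, smul_zero, Finset.sum_sub_distrib,
          Finset.sum_add_distrib, Finset.sum_ite_eq', Finset.mem_univ, if_true]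
        rw [← hry, hPy]
        abel
      rw [hcalc]
      refine sub_mem hr ?_
      simpa using pow_mulVec_lowImg hc k' 1 hR
    have hne : l ≠ k' := by
      rintro rfl
      simp [k'] at hl
    have h4 := ih (by omega) _ h3 l (by omega)
    rw [if_neg hne, sub_zero] at h4
    have h5 : P k' *ᵥ u l ∈ formImg f ⊔ lowImg P (k + 1) :=
      Submodule.mem_sup_right (mem_lowImg k' (by simp [k']) _)
    have h6 := sub_mem (sup_le_sup_left (lowImg_mono (Nat.le_succ k)) _ h4) h5
    rwa [add_sub_cancel_right] at h6

variable (hP : ∀ k, Lin (P k)) (hf : ∀ k, (f k).IsHomogeneous (a k))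

include hc ha hp hsyz hP hf in
lemma lin_indep : ∀ k ≤ n, ∀ u : Fin n → ι → MvPolynomial (Fin n) L,
    (∀ j i, (u j i).IsHomogeneous 0) →
    ∑ j ∈ Finset.univ.filter (fun j : Fin n => (j : ℕ) < k), P j *ᵥ u j = 0 →
    ∀ j : Fin n, (j : ℕ) < k → u j = 0 := by
  intro k
  induction k with
  | zero => intro _ u _ _ j hj; omega
  | succ k ih =>
    intro hk u hu hsum j hj
    let k' : Fin n := ⟨k, hk⟩
    have hset : Finset.univ.filter (fun j : Fin n => (j : ℕ) < k + 1) =
        insert k' (Finset.univ.filter fun j : Fin n => (j : ℕ) < k) := by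
      ext j; simp [k', Fin.ext_iff]; omega
    rw [hset, Finset.sum_insert (by simp [k'])] at hsum
    have hmem : P k' *ᵥ u k' ∈ lowImg P k := by
      rw [eq_neg_of_add_eq_zero_left hsum]
      exact neg_mem (sum_mem fun m hm => mem_lowImg m (Finset.mem_filter.1 hm).2 _)
    have h1 := pow_mulVec_lowImg hc k' (a k' - 1) hmem
    rw [Matrix.mulVec_mulVec, ← pow_succ, show a k' - 1 + 1 = a k' by have := ha k'; omega, hp,
      Matrix.smul_mulVec, Matrix.one_mulVec] at h1
    have h2 := coeff_mem hc ha hp hsyz k (by omega) (fun m => if m = k' then u k' else 0)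
      (by simpa [smul_ite] using h1) k' le_rfl
    rw [if_pos rfl] at h2
    have hk0 : u k' = 0 := by
      let Z : Submodule (MvPolynomial (Fin n) L) (ι → MvPolynomial (Fin n) L) :=
        Submodule.pi Set.univ fun _ => RingHom.ker (constantCoeff : MvPolynomial (Fin n) L →+* L)
      have hle : formImg f ⊔ lowImg P k ≤ Z := by
        refine sup_le (iSup_le fun l => ?_) (iSup₂_le fun m _ => ?_)
        · rintro _ ⟨v, rfl⟩ i -
          show constantCoeff (f l * v i) = 0
          rw [map_mul, constantCoeff_eq, (hf l).coeff_eq_zero (by simpa using (ha l).ne), zero_mul]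
        · rintro _ ⟨v, rfl⟩ i -
          show constantCoeff ((P m *ᵥ v) i) = 0
          simp only [Matrix.mulVec, dotProduct, map_sum, map_mul]
          refine Finset.sum_eq_zero fun t _ => ?_
          rw [constantCoeff_eq, (hP m i t).coeff_eq_zero (by simp), zero_mul]
      funext i
      have h3 : constantCoeff (u k' i) = 0 := hle h2 i trivial
      rw [Pi.zero_apply, ← homogeneousComponent_eq_self (hu k' i), homogeneousComponent_zero,
        ← constantCoeff_eq, h3, map_zero]
    rcases Nat.lt_succ_iff_lt_or_eq.1 hj with h | h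
    · refine ih (by omega) u hu ?_ j h
      rwa [hk0, Matrix.mulVec_zero, zero_add] at hsum
    · rw [show j = k' from Fin.ext h, hk0]

/-- Vectors of forms of one degree. -/
noncomputable def homVec (L : Type*) [Field L] (n : ℕ) (ι : Type) (d : ℕ) :
    Submodule L (ι → MvPolynomial (Fin n) L) :=
  Submodule.pi Set.univ fun _ => homogeneousSubmodule (Fin n) L d

lemma mem_homVec {d : ℕ} {v : ι → MvPolynomial (Fin n) L} :
    v ∈ homVec L n ι d ↔ ∀ i, (v i).IsHomogeneous d :=
  ⟨fun h i => h i trivial, fun h i _ => h i⟩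

instance finite_homVec (d : ℕ) : FiniteDimensional L (homVec L n ι d) := by
  let g : homVec L n ι d →ₗ[L] ι → homogeneousSubmodule (Fin n) L d :=
    LinearMap.pi fun i => LinearMap.codRestrict _ ((LinearMap.proj i).comp (Submodule.subtype _))
      fun v => v.2 i trivial
  exact Module.Finite.of_injective g fun v w h => Subtype.ext (funext fun i =>
    congrArg Subtype.val (congrFun h i))

include hc ha hp hsyz hP hf in
/-- The images of the matrices contain all vectors of linear forms. -/
lemma exists_lin_preimage (v : ι → MvPolynomial (Fin n) L) (hv : ∀ i, (v i).IsHomogeneous 1) :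
    ∃ u : Fin n → ι → MvPolynomial (Fin n) L, ∑ j, P j *ᵥ u j = v := by
  let Λ : (Fin n × ι → L) →ₗ[L] homVec L n ι 1 :=
    LinearMap.codRestrict _
      (∑ j : Fin n, ((P j).mulVecLin.restrictScalars L).comp
        (LinearMap.pi fun i => (Algebra.linearMap L (MvPolynomial (Fin n) L)).comp
          (LinearMap.proj (j, i))))
      fun c => mem_homVec.2 fun i => by
        simp only [LinearMap.coe_sum, Finset.sum_apply, LinearMap.comp_apply,
          LinearMap.coe_restrictScalars, Matrix.mulVecLin_apply]
        refine IsHomogeneous.sum _ _ _ fun j _ => ?_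
        refine IsHomogeneous.sum _ _ _ fun t _ => ?_
        exact (hP j i t).mul (isHomogeneous_C _ _)
  have hΛ : ∀ c, (Λ c : ι → MvPolynomial (Fin n) L) = ∑ j, P j *ᵥ fun i => C (c (j, i)) := by
    intro c
    simp only [Λ, LinearMap.codRestrict_apply, LinearMap.coe_sum, Finset.sum_apply,
      LinearMap.comp_apply, LinearMap.coe_restrictScalars, Matrix.mulVecLin_apply]
    rfl
  have hinj : Function.Injective Λ := by
    rw [← LinearMap.ker_eq_bot, LinearMap.ker_eq_bot']
    intro c hc0
    have h := congrArg Subtype.val hc0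
    rw [hΛ] at h
    have h2 := lin_indep hc ha hp hsyz hP hf n le_rfl (fun j i => C (c (j, i)))
      (fun j i => isHomogeneous_C _ _) (by
        rw [Finset.filter_true_of_mem (fun j _ => j.2)]; exact h)
    funext ⟨j, i⟩
    simpa using congrFun (h2 j j.2) i
  have hdim : finrank L (homVec L n ι 1) ≤ finrank L (Fin n × ι → L) := by
    let g : (Fin n × ι → L) →ₗ[L] homVec L n ι 1 :=
      LinearMap.codRestrict _ (LinearMap.pi fun i => ∑ j : Fin n,
        (LinearMap.proj (R := L) (φ := fun _ => L) (j, i)).smulRight (X j : MvPolynomial (Fin n) L))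
        fun c => mem_homVec.2 fun i => by
          simp only [LinearMap.pi_apply, LinearMap.coe_sum, Finset.sum_apply,
            LinearMap.smulRight_apply]
          exact IsHomogeneous.sum _ _ _ fun j _ =>
            Submodule.smul_mem (homogeneousSubmodule (Fin n) L 1) _ (isHomogeneous_X L j)
    refine LinearMap.finrank_le_finrank_of_surjective (f := g) fun w => ?_
    have hw : ∀ i, ∃ c : Fin n → L, ∑ j, c j • (X j : MvPolynomial (Fin n) L) = (w : ι → _) i :=
      fun i => by
        have := mem_homVec.1 w.2 i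
        rw [← mem_homogeneousSubmodule, homogeneousSubmodule_one_eq_span_X,
          Submodule.mem_span_range_iff_exists_fun] at this
        exact this
    choose c hc' using hw
    refine ⟨fun p => c p.2 p.1, Subtype.ext (funext fun i => ?_)⟩
    simp only [g, LinearMap.codRestrict_apply, LinearMap.pi_apply, LinearMap.coe_sum,
      Finset.sum_apply, LinearMap.smulRight_apply, LinearMap.proj_apply]
    exact hc' i
  have hsurj : Function.Surjective Λ :=
    (LinearMap.injective_iff_surjective_of_finrank_eq_finrank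
      (le_antisymm (LinearMap.finrank_le_finrank_of_injective hinj) hdim)).1 hinj
  obtain ⟨c, hc1⟩ := hsurj ⟨v, mem_homVec.2 hv⟩
  exact ⟨fun j i => C (c (j, i)), by rw [← hΛ, hc1]⟩

end syzygy

section subst

open scoped IsMulCommutative

variable (P : Fin n → Matrix ι ι (MvPolynomial (Fin n) L))
  (hc : ∀ j k, P j * P k = P k * P j)

/-- Substitution of the commuting matrices for the variables. -/
noncomputable def substM : MvPolynomial (Fin n) L →ₐ[L] Matrix ι ι (MvPolynomial (Fin n) L) :=
  haveI := Algebra.isMulCommutative_adjoin L (s := Set.range P) (by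
    rintro _ ⟨j, rfl⟩ _ ⟨k, rfl⟩; exact hc j k)
  (Algebra.adjoin L (Set.range P)).val.comp
    (MvPolynomial.aeval fun k => ⟨P k, Algebra.subset_adjoin ⟨k, rfl⟩⟩)

lemma substM_X (k : Fin n) : substM P hc (X k) = P k := by
  simp [substM]

/-- Substitution acting on vectors. -/
noncomputable def substV :
    (ι → MvPolynomial (Fin n) L) →ₗ[L] ι → MvPolynomial (Fin n) L where
  toFun p := fun i => ∑ j, substM P hc (p j) i j
  map_add' p p' := by
    funext i
    simp only [Pi.add_apply, map_add, Matrix.add_apply, Finset.sum_add_distrib]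
  map_smul' c p := by
    funext i
    simp only [Pi.smul_apply, map_smul, Matrix.smul_apply, RingHom.id_apply, Finset.smul_sum]

lemma substV_eq (p : ι → MvPolynomial (Fin n) L) :
    substV P hc p = ∑ j, substM P hc (p j) *ᵥ Pi.single j 1 := by
  funext i
  simp [substV, Finset.sum_apply]

lemma substV_smul (g : MvPolynomial (Fin n) L) (p : ι → MvPolynomial (Fin n) L) :
    substV P hc (g • p) = substM P hc g *ᵥ substV P hc p := by
  rw [substV_eq, substV_eq, Matrix.mulVec_sum]
  refine Finset.sum_congr rfl fun j _ => ?_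
  rw [Pi.smul_apply, smul_eq_mul, map_mul, Matrix.mulVec_mulVec]

variable {P} {hc} (hP : ∀ k, Lin (P k))

include hP in
lemma substM_monomial (e : Fin n →₀ ℕ) (c : L) :
    ∀ i j, (substM P hc (monomial e c) i j).IsHomogeneous e.degree := by
  induction e using Finsupp.induction generalizing c with
  | zero =>
    intro i j
    rw [monomial_zero', ← algebraMap_eq, AlgHom.commutes, Matrix.algebraMap_matrix_apply, map_zero]
    split_ifs
    exacts [isHomogeneous_C _ _, isHomogeneous_zero _ _ _]
  | single_add k m e hk hm ih =>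
    clear hk hm
    induction m generalizing c with
    | zero => simpa using ih c
    | succ m ihm =>
      intro i j
      rw [Finsupp.single_add, show Finsupp.single k m + Finsupp.single k 1 + e =
        Finsupp.single k 1 + (Finsupp.single k m + e) by abel,
        show monomial (Finsupp.single k 1 + (Finsupp.single k m + e)) c =
          X k * monomial (Finsupp.single k m + e) c by rw [X, monomial_mul, one_mul],
        map_mul, substM_X, map_add, Finsupp.degree_single, Matrix.mul_apply]
      exact IsHomogeneous.sum _ _ _ fun t _ => (hP k i t).mul (ihm c t j)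

include hP in
lemma substM_homogeneous {g : MvPolynomial (Fin n) L} {d : ℕ} (hg : g.IsHomogeneous d) :
    ∀ i j, (substM P hc g i j).IsHomogeneous d := by
  intro i j
  rw [g.as_sum, map_sum, Matrix.sum_apply]
  refine IsHomogeneous.sum _ _ _ fun e he => ?_
  have h := hg (MvPolynomial.mem_support_iff.1 he)
  rw [show d = e.degree by rw [Finsupp.degree_eq_weight_one]; exact h.symm]
  exact substM_monomial hP e _ i j

include hP in
lemma substV_mem_homVec {p : ι → MvPolynomial (Fin n) L} {d : ℕ} (hp : p ∈ homVec L n ι d) :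
    substV P hc p ∈ homVec L n ι d :=
  mem_homVec.2 fun i => IsHomogeneous.sum _ _ _ fun j _ =>
    substM_homogeneous hP (mem_homVec.1 hp j) i j

variable {a : Fin n → ℕ} (ha : ∀ k, 0 < a k) {f : Fin n → MvPolynomial (Fin n) L}
  (hp : ∀ k, P k ^ a k = f k • (1 : Matrix ι ι (MvPolynomial (Fin n) L)))
  (hsyz : ∀ w : Fin n → MvPolynomial (Fin n) L, ∑ l, f l * w l = 0 →
    ∀ l, w l ∈ Ideal.span (Set.range f)) (hf : ∀ k, (f k).IsHomogeneous (a k))

include hP hc ha hp hsyz hf in
lemma exists_preimage : ∀ (d : ℕ) (v : ι → MvPolynomial (Fin n) L), v ∈ homVec L n ι d →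
    ∃ p ∈ homVec L n ι d, substV P hc p = v := by
  intro d
  induction d with
  | zero =>
    intro v hv
    refine ⟨v, hv, ?_⟩
    funext i
    have hC : ∀ j, v j = C (coeff 0 (v j)) := fun j =>
      (homogeneousComponent_eq_self (mem_homVec.1 hv j)).symm.trans (homogeneousComponent_zero _)
    show ∑ j, substM P hc (v j) i j = v i
    rw [Finset.sum_eq_single i]
    · rw [hC i, ← algebraMap_eq, AlgHom.commutes, Matrix.algebraMap_matrix_apply, if_pos rfl]
    · intro j _ hj
      rw [hC j, ← algebraMap_eq, AlgHom.commutes, Matrix.algebraMap_matrix_apply, if_neg hj.symm]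
    · simp
  | succ d ih =>
    intro v hv
    have hz : ∀ w : ι → MvPolynomial (Fin n) L, w ∈ homVec L n ι d → ∀ k,
        ∃ p ∈ homVec L n ι (d + 1), substV P hc p = P k *ᵥ w := by
      intro w hw k
      obtain ⟨p, hp1, rfl⟩ := ih w hw
      refine ⟨(X k : MvPolynomial (Fin n) L) • p, mem_homVec.2 fun i => ?_, ?_⟩
      · rw [Pi.smul_apply, smul_eq_mul, add_comm d 1]
        exact (isHomogeneous_X L k).mul (mem_homVec.1 hp1 i)
      · rw [substV_smul, substM_X]
    have hx : ∀ i j, ∃ u : Fin n → ι → MvPolynomial (Fin n) L,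
        ∑ k, P k *ᵥ u k = (X j : MvPolynomial (Fin n) L) • Pi.single i 1 := by
      intro i j
      refine exists_lin_preimage hc ha hp hsyz hP hf _ fun t => ?_
      rw [Pi.smul_apply, Pi.single_apply, smul_eq_mul]
      split_ifs
      · rw [mul_one]; exact isHomogeneous_X L j
      · rw [mul_zero]; exact isHomogeneous_zero _ _ _
    choose u hu using hx
    have hin : v ∈ ((⨆ k, LinearMap.range (P k).mulVecLin) :
        Submodule (MvPolynomial (Fin n) L) (ι → MvPolynomial (Fin n) L)) := by
      rw [pi_eq_sum_univ' v]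
      refine sum_mem fun i _ => ?_
      have hi : v i ∈ Ideal.span (Set.range (X : Fin n → MvPolynomial (Fin n) L)) :=
        mem_span_X_of_isHomogeneous (Nat.succ_pos d) (mem_homVec.1 hv i)
      obtain ⟨g, hg⟩ := (Submodule.mem_span_range_iff_exists_fun _).1 hi
      rw [← hg, Finset.sum_smul]
      refine sum_mem fun j _ => ?_
      rw [smul_assoc, ← hu]
      exact Submodule.smul_mem _ _ (sum_mem fun k _ => Submodule.mem_iSup_of_mem k ⟨_, rfl⟩)
    rw [Submodule.mem_iSup_iff_exists_finsupp] at hin
    obtain ⟨y, hy, hsum⟩ := hin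
    choose w hw using fun k => hy k
    rw [Finsupp.sum_fintype y (fun _ x => x) (fun _ => rfl)] at hsum
    simp only [← hw, Matrix.mulVecLin_apply] at hsum
    let w' : Fin n → ι → MvPolynomial (Fin n) L := fun k i => homogeneousComponent d (w k i)
    have hv' : ∑ k, P k *ᵥ w' k = v := by
      funext i
      have h1 : homogeneousComponent (d + 1) ((∑ k, P k *ᵥ w k) i) = v i := by
        rw [hsum, homogeneousComponent_eq_self (mem_homVec.1 hv i)]
      rw [← h1, Finset.sum_apply, Finset.sum_apply, map_sum]
      refine Finset.sum_congr rfl fun k _ => ?_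
      simp only [Matrix.mulVec, dotProduct, map_sum, w']
      refine Finset.sum_congr rfl fun t _ => ?_
      rw [homogeneousComponent_mul_left (hP k i t), if_pos (by omega), Nat.add_sub_cancel]
    choose p hp1 hp2 using fun k => hz (w' k)
      (mem_homVec.2 fun i => homogeneousComponent_isHomogeneous _ _) k
    refine ⟨∑ k, p k, sum_mem fun k _ => hp1 k, ?_⟩
    rw [map_sum, Finset.sum_congr rfl fun k _ => hp2 k, hv']

include hP hc ha hp hsyz hf in
/-- Substitution is injective in each degree. -/
lemma substV_eq_zero {d : ℕ} {p : ι → MvPolynomial (Fin n) L} (hp1 : p ∈ homVec L n ι d)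
    (h0 : substV P hc p = 0) : p = 0 := by
  let T : homVec L n ι d →ₗ[L] homVec L n ι d :=
    (substV P hc).restrict fun q hq => substV_mem_homVec hP hq
  have hsurj : Function.Surjective T := fun v => by
    obtain ⟨q, hq1, hq2⟩ := exists_preimage hP ha hp hsyz hf (hc := hc) d v v.2
    exact ⟨⟨q, hq1⟩, Subtype.ext hq2⟩
  have hinj : Function.Injective T := LinearMap.injective_iff_surjective.2 hsurj
  have h1 : T ⟨p, hp1⟩ = T 0 := by
    rw [map_zero]
    exact Subtype.ext h0
  exact congrArg Subtype.val (hinj h1)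

end subst

end Vale.Agent.P200.Avg
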