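import Mathlib

/-!
Powers of a sum of two elements commuting up to a scalar that is a root of a cyclotomic polynomial:
the Gaussian binomial coefficients in between vanish, in every characteristic.
-/

namespace Vale.Agent.P200.Avg

open Polynomial Finset

/-- The Gaussian binomial coefficient as a polynomial. -/
noncomputable def gb : ℕ → ℕ → ℤ[X]
  | 0, 0 => 1
  | 0, _ + 1 => 0
  | _ + 1, 0 => 1
  | m + 1, k + 1 => gb m k + X ^ (k + 1) * gb m (k + 1)

lemma gb_eq_zero : ∀ {m k : ℕ}, m < k → gb m k = 0 := by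
  intro m
  induction m with
  | zero =>
    intro k hk
    obtain ⟨k, rfl⟩ : ∃ j, k = j + 1 := ⟨k - 1, by omega⟩
    rw [gb]
  | succ m ih =>
    intro k hk
    obtain ⟨k, rfl⟩ : ∃ j, k = j + 1 := ⟨k - 1, by omega⟩
    rw [gb, ih (by omega), ih (by omega)]
    simp

lemma gb_zero_right (m : ℕ) : gb m 0 = 1 := by
  cases m <;> rw [gb]

lemma gb_self (m : ℕ) : gb m m = 1 := by
  induction m with
  | zero => rw [gb]
  | succ m ih => rw [gb, ih, gb_eq_zero (Nat.lt_succ_self m)]; simp

lemma coeff_prod_eq {R : Type*} [CommRing R] (z : R) : ∀ m k : ℕ,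
    (∏ i ∈ range m, (1 + C (z ^ i) * X : R[X])).coeff k =
      z ^ (k.choose 2) * aeval z (gb m k) := by
  intro m
  induction m with
  | zero =>
    intro k
    rcases k with _ | k
    · rw [gb]; simp
    · rw [gb]; simp [coeff_one]
  | succ m ih =>
    intro k
    have hc : (∏ i ∈ range m, (1 + C (z ^ (i + 1)) * X : R[X])) =
        (∏ i ∈ range m, (1 + C (z ^ i) * X : R[X])).comp (C z * X) := by
      rw [Polynomial.prod_comp]
      refine Finset.prod_congr rfl fun i _ => ?_
      rw [add_comp, mul_comp, one_comp, C_comp, X_comp, pow_succ, map_mul]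
      ring
    rw [Finset.prod_range_succ', hc, pow_zero, map_one, one_mul]
    rcases k with _ | k
    · rw [mul_coeff_zero, comp_C_mul_X_coeff, ih, gb_zero_right, gb_zero_right]
      simp
    · rw [mul_add, mul_one, coeff_add, coeff_mul_X, comp_C_mul_X_coeff, comp_C_mul_X_coeff, ih, ih,
        Nat.choose_succ_succ' k 1, Nat.choose_one_right, gb, map_add, map_mul, map_pow, aeval_X,
        pow_add]
      ring

lemma aeval_gb_primitive {a k : ℕ} (ha : 0 < a) {z : ℂ} (hz : IsPrimitiveRoot z a)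
    (hk0 : 0 < k) (hk : k < a) : aeval z (gb a k) = 0 := by
  have hz0 : z ≠ 0 := hz.ne_zero (by omega)
  set P : ℂ[X] := ∏ i ∈ range a, (1 + C (z ^ i) * X) with hP
  have hcomp : P.comp (C z * X) = P := by
    have hc : P.comp (C z * X) = ∏ i ∈ range a, (1 + C (z ^ (i + 1)) * X : ℂ[X]) := by
      rw [hP, Polynomial.prod_comp]
      refine Finset.prod_congr rfl fun i _ => ?_
      rw [add_comp, mul_comp, one_comp, C_comp, X_comp, pow_succ, map_mul]
      ring
    have h1 : (∏ i ∈ range (a + 1), (1 + C (z ^ i) * X : ℂ[X])) = P * (1 + X) := by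
      rw [Finset.prod_range_succ, hz.pow_eq_one, map_one, one_mul]
    rw [Finset.prod_range_succ', pow_zero, map_one, one_mul, ← hc] at h1
    have hne : (1 + X : ℂ[X]) ≠ 0 := by
      intro h
      have := congrArg (fun p : ℂ[X] => p.coeff 0) h
      simp at this
    exact mul_right_cancel₀ hne h1
  have h2 := congrArg (fun p : ℂ[X] => p.coeff k) hcomp
  simp only [comp_C_mul_X_coeff] at h2
  have h3 : P.coeff k = 0 := by
    by_contra hne
    have h4 : z ^ k = 1 := mul_left_cancel₀ hne (by rw [mul_one]; exact h2)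
    exact hz.pow_ne_one_of_pos_of_lt hk0.ne' hk h4
  rw [hP, coeff_prod_eq] at h3
  exact (mul_eq_zero.1 h3).resolve_left (pow_ne_zero _ hz0)

lemma aeval_gb_eq_zero {L : Type*} [CommRing L] {a k : ℕ} {q : L}
    (hq : (cyclotomic a L).IsRoot q) (hk0 : 0 < k) (hk : k < a) : aeval q (gb a k) = 0 := by
  have ha : 0 < a := by omega
  have hz := Complex.isPrimitiveRoot_exp a (by omega)
  have hdvd : cyclotomic a ℤ ∣ gb a k := by
    rw [cyclotomic_eq_minpoly hz ha]
    exact minpoly.isIntegrallyClosed_dvd (hz.isIntegral ha) (aeval_gb_primitive ha hz hk0 hk)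
  obtain ⟨r, hr⟩ := hdvd
  rw [hr, map_mul, aeval_def, eval₂_eq_eval_map, map_cyclotomic, hq.eq_zero, zero_mul]

section

variable {L R : Type*} [CommRing L] [Ring R] [Algebra L R] {x y : R} {q : L}

lemma mul_pow_comm (h : y * x = q • (x * y)) : ∀ k : ℕ, y * x ^ k = q ^ k • (x ^ k * y) := by
  intro k
  induction k with
  | zero => simp
  | succ k ih =>
    rw [pow_succ x, ← mul_assoc, ih, smul_mul_assoc, mul_assoc, h, mul_smul_comm, smul_smul,
      pow_succ q, mul_assoc]

lemma add_pow_eq_sum (h : y * x = q • (x * y)) : ∀ m : ℕ,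
    (x + y) ^ m = ∑ k ∈ range (m + 1), aeval q (gb m k) • (x ^ k * y ^ (m - k)) := by
  intro m
  induction m with
  | zero => simp [gb]
  | succ m ih =>
    rw [pow_succ', ih, Finset.mul_sum]
    have hx : ∀ k ∈ range (m + 1), (x + y) * (aeval q (gb m k) • (x ^ k * y ^ (m - k))) =
        aeval q (gb m k) • (x ^ (k + 1) * y ^ (m - k)) +
          (q ^ k * aeval q (gb m k)) • (x ^ k * y ^ (m + 1 - k)) := by
      intro k hk
      have hk' : k ≤ m := Nat.lt_succ_iff.1 (mem_range.1 hk)
      rw [mul_smul_comm, add_mul, smul_add, ← mul_assoc x, ← pow_succ', ← mul_assoc y,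
        mul_pow_comm h, smul_mul_assoc, mul_assoc, ← pow_succ', smul_smul,
        show m + 1 - k = m - k + 1 by omega, mul_comm (q ^ k)]
    rw [Finset.sum_congr rfl hx, Finset.sum_add_distrib]
    have h1 : ∑ k ∈ range (m + 1), (q ^ k * aeval q (gb m k)) • (x ^ k * y ^ (m + 1 - k)) =
        (∑ k ∈ range (m + 1),
          (q ^ (k + 1) * aeval q (gb m (k + 1))) • (x ^ (k + 1) * y ^ (m - k))) + y ^ (m + 1) := by
      rw [Finset.sum_range_succ', Finset.sum_range_succ (f := fun k =>
        (q ^ (k + 1) * aeval q (gb m (k + 1))) • (x ^ (k + 1) * y ^ (m - k)))]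
      simp [gb_eq_zero (Nat.lt_succ_self m), gb_zero_right]
    rw [h1, ← add_assoc, ← Finset.sum_add_distrib, Finset.sum_range_succ' _ (m + 1)]
    congr 1
    · refine Finset.sum_congr rfl fun k _ => ?_
      rw [gb, map_add, map_mul, map_pow, aeval_X, add_smul, Nat.succ_sub_succ_eq_sub]
    · simp [gb_zero_right]

/-- The Gaussian binomial theorem at a root of a cyclotomic polynomial. -/
theorem add_pow_of_root {a : ℕ} (ha : 0 < a) (hq : (cyclotomic a L).IsRoot q)
    (h : y * x = q • (x * y)) : (x + y) ^ a = x ^ a + y ^ a := by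
  rw [add_pow_eq_sum h, Finset.sum_range_succ]
  obtain ⟨b, rfl⟩ : ∃ b, a = b + 1 := ⟨a - 1, by omega⟩
  rw [Finset.sum_range_succ', Finset.sum_eq_zero fun k hk => ?_]
  · simp [gb_zero_right, gb_self, add_comm]
  · rw [aeval_gb_eq_zero hq (Nat.succ_pos k) (by simpa using Nat.succ_lt_succ (mem_range.1 hk)),
      zero_smul]

lemma pow_eq_one_of_root {a : ℕ} (hq : (cyclotomic a L).IsRoot q) : q ^ a = 1 := by
  obtain ⟨r, hr⟩ := cyclotomic.dvd_X_pow_sub_one a L
  have := congrArg (Polynomial.eval q) hr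
  rw [eval_mul, hq.eq_zero, zero_mul, eval_sub, eval_pow, eval_X, eval_one, sub_eq_zero] at this
  exact this

end

end Vale.Agent.P200.Avg
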