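import Vale.Agent.P200.Avg.Free

/-!
Leading exponents: one monomial ideal for each coordinate of the free module.
-/

namespace Vale.Agent.P200.Avg

open MvPolynomial Matrix Module

set_option linter.unusedSectionVars false

variable {L : Type*} [Field L] {n : ℕ} {ι : Type} [Fintype ι] [DecidableEq ι]

/-- The order on coordinates and exponents. -/
noncomputable def key (k : ι × (Fin n →₀ ℕ)) : Lex (Fin (Fintype.card ι) × Lex (Fin n →₀ ℕ)) :=
  toLex (Fintype.equivFin ι k.1, toLex k.2)

lemma key_injective : Function.Injective (key : ι × (Fin n →₀ ℕ) → _) := fun k k' h => by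
  simp only [key, toLex_inj, Prod.mk.injEq, EmbeddingLike.apply_eq_iff_eq] at h
  exact Prod.ext h.1 h.2

lemma key_add {k k' : ι × (Fin n →₀ ℕ)} (h : key k' ≤ key k) (δ : Fin n →₀ ℕ) :
    key (k'.1, k'.2 + δ) ≤ key (k.1, k.2 + δ) := by
  simp only [key, Prod.Lex.toLex_le_toLex] at h ⊢
  rcases h with h | ⟨h1, h2⟩
  · exact Or.inl h
  · refine Or.inr ⟨h1, ?_⟩
    show toLex k'.2 + toLex δ ≤ toLex k.2 + toLex δ
    exact add_le_add_left h2 _

/-- `k` is the leading position of `v`. -/
def IsTop (v : ι → MvPolynomial (Fin n) L) (k : ι × (Fin n →₀ ℕ)) : Prop :=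
  coeff k.2 (v k.1) ≠ 0 ∧ ∀ k' : ι × (Fin n →₀ ℕ), coeff k'.2 (v k'.1) ≠ 0 → key k' ≤ key k

/-- The leading exponents at the coordinate `j`. -/
def topSet (U : Submodule L (ι → MvPolynomial (Fin n) L)) (j : ι) : Set (Fin n →₀ ℕ) :=
  {e | ∃ v ∈ U ⊓ homVec L n ι e.degree, IsTop v (j, e)}

variable (U : Submodule L (ι → MvPolynomial (Fin n) L))

lemma degree_of_coeff {d : ℕ} {v : ι → MvPolynomial (Fin n) L} (hv : v ∈ homVec L n ι d)
    {j : ι} {e : Fin n →₀ ℕ} (h : coeff e (v j) ≠ 0) : e.degree = d := by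
  have := mem_homVec.1 hv j h
  rw [Finsupp.degree_eq_weight_one]
  exact this

lemma sum_card_topSet (d : ℕ) :
    ∑ j, Nat.card {e : Fin n →₀ ℕ // e.degree = d ∧ e ∈ topSet U j} =
      finrank L ↥(U ⊓ homVec L n ι d) := by
  classical
  let D : Finset (ι × (Fin n →₀ ℕ)) := Finset.univ ×ˢ Finset.univ.finsuppAntidiag d
  have hD : ∀ k : ι × (Fin n →₀ ℕ), k ∈ D ↔ k.2.degree = d := fun k => by
    simp [D, Finsupp.degree_eq_sum]
  let T := D.filter fun k => k.2 ∈ topSet U k.1
  have hcard : ∑ j, Nat.card {e : Fin n →₀ ℕ // e.degree = d ∧ e ∈ topSet U j} = T.card := by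
    rw [← Nat.card_eq_finsetCard T,
      Nat.card_congr
        ({ toFun := fun k => ⟨k.1.1, k.1.2, (hD _).1 (Finset.mem_filter.1 k.2).1,
             (Finset.mem_filter.1 k.2).2⟩
           invFun := fun z => ⟨(z.1, z.2.1),
             Finset.mem_filter.2 ⟨(hD _).2 z.2.2.1, z.2.2.2⟩⟩
           left_inv := fun _ => rfl
           right_inv := fun _ => rfl } :
          T ≃ Σ j : ι, {e : Fin n →₀ ℕ // e.degree = d ∧ e ∈ topSet U j})]
    have : ∀ j : ι, Finite {e : Fin n →₀ ℕ // e.degree = d ∧ e ∈ topSet U j} := fun j =>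
      Finite.of_injective
        (fun e => (⟨(j, e.1), (hD (j, e.1)).2 e.2.1⟩ : {k // k ∈ D}))
        fun e e' h => Subtype.ext (Prod.ext_iff.1 (Subtype.ext_iff.1 h)).2
    rw [Nat.card_sigma]
  rw [hcard]
  have hex : ∀ k : {k // k ∈ T}, ∃ v ∈ U ⊓ homVec L n ι d, IsTop v k.1 := fun k => by
    obtain ⟨h1, v, hv, h2⟩ := Finset.mem_filter.1 k.2
    rw [(hD _).1 h1] at hv
    exact ⟨v, hv, h2⟩
  choose w hw htop using hex
  let F : {k // k ∈ T} → ↥(U ⊓ homVec L n ι d) := fun k => ⟨w k, hw k⟩
  have : FiniteDimensional L ↥(U ⊓ homVec L n ι d) :=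
    Submodule.finiteDimensional_of_le inf_le_right
  refine le_antisymm ?_ ?_
  · have hli : LinearIndependent L F := by
      rw [Fintype.linearIndependent_iff]
      intro g hg
      by_contra hne
      push Not at hne
      obtain ⟨i, hi⟩ := hne
      obtain ⟨S, hS, hmax⟩ := (Finset.univ.filter fun j => g j ≠ 0).exists_max_image
        (fun j => key j.1) ⟨i, by simp [hi]⟩
      have h0 : coeff S.1.2 ((∑ j, g j • w j) S.1.1) = 0 := by
        have := congrArg Subtype.val hg
        simp only [F, Submodule.coe_sum, Submodule.coe_smul, ZeroMemClass.coe_zero] at this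
        rw [this]; simp
      rw [Finset.sum_apply, coeff_sum, Finset.sum_eq_single S] at h0
      · rw [Pi.smul_apply, coeff_smul, smul_eq_mul] at h0
        rcases mul_eq_zero.mp h0 with h | h
        · exact (Finset.mem_filter.mp hS).2 h
        · exact (htop S).1 h
      · intro j _ hj
        by_cases hg0 : g j = 0
        · simp [hg0]
        · rw [Pi.smul_apply, coeff_smul, smul_eq_mul]
          refine mul_eq_zero_of_right _ ?_
          by_contra hne
          exact hj (Subtype.ext (key_injective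
            (le_antisymm (hmax j (by simp [hg0])) ((htop j).2 _ hne))))
      · simp
    simpa using hli.fintype_card_le_finrank
  · let g : ↥(U ⊓ homVec L n ι d) →ₗ[L] {k // k ∈ T} → L :=
      LinearMap.pi fun k => ((lcoeff L k.1.2).comp (LinearMap.proj k.1.1)).comp (Submodule.subtype _)
    have hinj : Function.Injective g := by
      rw [← LinearMap.ker_eq_bot, LinearMap.ker_eq_bot']
      intro v hv0
      by_contra hne
      have hne' : (D.filter fun k => coeff k.2 ((v : ι → MvPolynomial (Fin n) L) k.1) ≠ 0).Nonempty := by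
        by_contra hemp
        refine hne (Subtype.ext (funext fun j => MvPolynomial.ext _ _ fun e => ?_))
        rw [ZeroMemClass.coe_zero, Pi.zero_apply, coeff_zero]
        by_contra hcoef
        exact hemp ⟨(j, e), Finset.mem_filter.2 ⟨(hD _).2 (degree_of_coeff v.2.2 hcoef), hcoef⟩⟩
      obtain ⟨k, hk, hmax⟩ := Finset.exists_max_image _ key hne'
      obtain ⟨hkD, hkc⟩ := Finset.mem_filter.1 hk
      have htopk : IsTop (v : ι → MvPolynomial (Fin n) L) k := ⟨hkc, fun k' hk' =>
        hmax k' (Finset.mem_filter.2 ⟨(hD _).2 (degree_of_coeff v.2.2 hk'), hk'⟩)⟩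
      have hkT : k ∈ T := Finset.mem_filter.2
        ⟨hkD, (v : ι → MvPolynomial (Fin n) L), by rw [(hD k).1 hkD]; exact v.2, htopk⟩
      exact hkc (congrFun hv0 ⟨k, hkT⟩)
    simpa using LinearMap.finrank_le_finrank_of_injective hinj

variable {U}

lemma topSet_upper (hU : ∀ i, ∀ v ∈ U, (X i : MvPolynomial (Fin n) L) • v ∈ U) (j : ι) :
    ∀ e ∈ topSet U j, ∀ e', e ≤ e' → e' ∈ topSet U j := by
  have hone : ∀ e ∈ topSet U j, ∀ i, Finsupp.single i 1 + e ∈ topSet U j := by
    rintro e ⟨v, hv, h1, h2⟩ i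
    refine ⟨(X i : MvPolynomial (Fin n) L) • v, ⟨hU i v hv.1, mem_homVec.2 fun t => ?_⟩, ?_, ?_⟩
    · rw [Pi.smul_apply, smul_eq_mul, map_add, Finsupp.degree_single]
      exact (isHomogeneous_X L i).mul (mem_homVec.1 hv.2 t)
    · rw [Pi.smul_apply, smul_eq_mul, coeff_X_mul]
      exact h1
    · rintro ⟨j', e'⟩ h
      rw [Pi.smul_apply, smul_eq_mul, coeff_X_mul'] at h
      split_ifs at h with hi
      · have hle : Finsupp.single i 1 ≤ e' :=
          Finsupp.single_le_iff.2 (Nat.one_le_iff_ne_zero.2 (Finsupp.mem_support_iff.1 hi))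
        have := key_add (h2 (j', e' - Finsupp.single i 1) h) (Finsupp.single i 1)
        rwa [tsub_add_cancel_of_le hle, add_comm e] at this
      · exact absurd rfl h
  intro e he e' hle
  obtain ⟨δ, rfl⟩ := le_iff_exists_add.1 hle
  clear hle
  induction δ using Finsupp.induction with
  | zero => simpa using he
  | single_add v m δ hk hm ih =>
    clear hk hm
    induction m with
    | zero => simpa using ih
    | succ m ihm =>
      rw [Finsupp.single_add, show e + (Finsupp.single v m + Finsupp.single v 1 + δ) =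
        Finsupp.single v 1 + (e + (Finsupp.single v m + δ)) by abel]
      exact hone _ ihm v

variable {P : Fin n → Matrix ι ι (MvPolynomial (Fin n) L)} {hc : ∀ j k, P j * P k = P k * P j}
  (hP : ∀ k, Lin (P k)) {a : Fin n → ℕ} (ha : ∀ k, 0 < a k) {f : Fin n → MvPolynomial (Fin n) L}
  (hp : ∀ k, P k ^ a k = f k • (1 : Matrix ι ι (MvPolynomial (Fin n) L)))
  (hsyz : ∀ w : Fin n → MvPolynomial (Fin n) L, ∑ l, f l * w l = 0 →
    ∀ l, w l ∈ Ideal.span (Set.range f)) (hf : ∀ k, (f k).IsHomogeneous (a k))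

include hP hc ha hp hsyz hf in
/-- One monomial model for every coordinate. -/
theorem exists_models (I : Ideal (MvPolynomial (Fin n) L)) :
    ∃ s : ι → Set (Fin n →₀ ℕ), (∀ j, ∀ e ∈ s j, ∀ e', e ≤ e' → e' ∈ s j) ∧
      (∀ j k, f k ∈ I → Finsupp.single k (a k) ∈ s j) ∧
      ∀ d, ∑ j, Nat.card {e : Fin n →₀ ℕ // e.degree = d ∧ e ∈ s j} =
        Fintype.card ι * finrank L (degPart d I) := by
  classical
  let W : Submodule L (ι → MvPolynomial (Fin n) L) := Submodule.pi Set.univ fun _ => I.restrictScalars L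
  have hW : ∀ v : ι → MvPolynomial (Fin n) L, v ∈ W ↔ ∀ i, v i ∈ I :=
    fun v => ⟨fun h i => h i trivial, fun h i _ => h i⟩
  let U := W.comap (substV P hc)
  have hU : ∀ i, ∀ v ∈ U, (X i : MvPolynomial (Fin n) L) • v ∈ U := fun i v hv => by
    rw [Submodule.mem_comap, hW, substV_smul, substM_X]
    intro t
    exact Ideal.sum_mem _ fun s _ => Ideal.mul_mem_left _ _ ((hW _).1 hv s)
  refine ⟨topSet U, topSet_upper hU, fun j k hk => ?_, fun d => ?_⟩
  · refine ⟨(X k : MvPolynomial (Fin n) L) ^ a k • Pi.single j 1, ⟨?_, ?_⟩, ?_, ?_⟩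
    · rw [SetLike.mem_coe, Submodule.mem_comap, hW, substV_smul, map_pow, substM_X, hp,
        Matrix.smul_mulVec, Matrix.one_mulVec]
      intro t
      exact Ideal.mul_mem_right _ _ hk
    · refine mem_homVec.2 fun t => ?_
      rw [Pi.smul_apply, Pi.single_apply, Finsupp.degree_single, smul_eq_mul]
      split_ifs
      · rw [mul_one]; exact isHomogeneous_X_pow _ _
      · rw [mul_zero]; exact isHomogeneous_zero _ _ _
    · simp [coeff_X_pow]
    · rintro ⟨j', e'⟩ h
      simp only [Pi.smul_apply, Pi.single_apply, smul_eq_mul] at h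
      split_ifs at h with hj
      · rw [mul_one, coeff_X_pow] at h
        simp only [ne_eq, ite_eq_right_iff, one_ne_zero, imp_false, not_not] at h
        rw [hj, ← h]
      · simp at h
  · rw [sum_card_topSet]
    let Θ : ↥(U ⊓ homVec L n ι d) →ₗ[L] (ι → ↥(degPart d I)) :=
      LinearMap.pi fun i => LinearMap.codRestrict _
        (((LinearMap.proj i).comp (substV P hc)).comp (Submodule.subtype _))
        fun v => mem_degPart.2 ⟨mem_homVec.1 (substV_mem_homVec hP v.2.2) i, (hW _).1 v.2.1 i⟩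
    have hval : ∀ v i, ((Θ v i : MvPolynomial (Fin n) L)) = substV P hc v.1 i := fun v i => rfl
    have hinj : Function.Injective Θ := by
      rw [← LinearMap.ker_eq_bot, LinearMap.ker_eq_bot']
      intro v hv
      refine Subtype.ext (substV_eq_zero (hc := hc) hP ha hp hsyz hf v.2.2 (funext fun i => ?_))
      rw [← hval, hv]
      rfl
    have hsurj : Function.Surjective Θ := by
      intro y
      obtain ⟨q, hq1, hq2⟩ := exists_preimage hP ha hp hsyz hf (hc := hc) d
        (fun i => (y i : MvPolynomial (Fin n) L)) (mem_homVec.2 fun i => (mem_degPart.1 (y i).2).1)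
      have hqU : q ∈ U := by
        rw [Submodule.mem_comap, hW, hq2]
        exact fun i => (mem_degPart.1 (y i).2).2
      exact ⟨⟨q, hqU, hq1⟩, funext fun i => Subtype.ext (congrFun hq2 i)⟩
    rw [(LinearEquiv.ofBijective Θ ⟨hinj, hsurj⟩).finrank_eq, Module.finrank_pi_fintype,
      Finset.sum_const, Finset.card_univ, smul_eq_mul]

end Vale.Agent.P200.Avg
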