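import Vale.Agent.P200.Avg.Gauss

/-!
Every form is, as a scalar matrix, a power of a matrix of linear forms; several forms at once by
commuting matrices.
-/

namespace Vale.Agent.P200.Avg

open MvPolynomial Matrix
open scoped Kronecker

variable {L : Type*} [Field L] {σ : Type*}

/-- All entries are linear forms. -/
def Lin {ι : Type*} (M : Matrix ι ι (MvPolynomial σ L)) : Prop :=
  ∀ i j, (M i j).IsHomogeneous 1

/-- `f` is the `a`-th power of a matrix of linear forms, with a twist that multiplies it by `q`. -/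
def Rep (a : ℕ) (q : L) (f : MvPolynomial σ L) : Prop :=
  ∃ (ι : Type) (_ : Fintype ι) (_ : DecidableEq ι) (_ : Nonempty ι)
    (P : Matrix ι ι (MvPolynomial σ L)) (G : Matrix ι ι (MvPolynomial σ L)),
    Lin P ∧ (∀ i j, (G i j).IsHomogeneous 0) ∧ P ^ a = f • (1 : Matrix ι ι (MvPolynomial σ L)) ∧
      G ^ a = 1 ∧ G * P = q • (P * G)

section shift

variable {a : ℕ} [NeZero a] {S : Type*} [CommRing S]

/-- A weighted cyclic shift. -/
def shift (v : ZMod a → S) : Matrix (ZMod a) (ZMod a) S :=
  Matrix.of fun s r => if s = r + 1 then v r else 0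

lemma shift_pow (v : ZMod a → S) : ∀ (j : ℕ) (s r : ZMod a),
    (shift v ^ j) s r = if s = r + (j : ZMod a) then ∏ i ∈ Finset.range j, v (r + (i : ZMod a)) else 0 := by
  intro j
  induction j with
  | zero => intro s r; simp [Matrix.one_apply]
  | succ j ih =>
    intro s r
    rw [pow_succ, Matrix.mul_apply, Finset.sum_eq_single (r + 1)]
    · rw [ih, shift, Matrix.of_apply, if_pos rfl, Finset.prod_range_succ' _ j, Nat.cast_zero,
        add_zero, show r + ((j + 1 : ℕ) : ZMod a) = r + 1 + (j : ZMod a) by push_cast; ring]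
      split_ifs with h
      · refine congrArg (· * v r) (Finset.prod_congr rfl fun i _ => ?_)
        congr 1
        push_cast
        ring
      · exact zero_mul _
    · intro t _ ht
      rw [shift, Matrix.of_apply, if_neg ht, mul_zero]
    · simp

lemma shift_pow_self (v : ZMod a → S) :
    shift v ^ a = (∏ r, v r) • (1 : Matrix (ZMod a) (ZMod a) S) := by
  ext s r
  rw [shift_pow, ZMod.natCast_self, add_zero, Matrix.smul_apply, Matrix.one_apply, smul_eq_mul]
  split_ifs with h
  · rw [mul_one, ← Fin.prod_univ_eq_prod_range (fun i => v (r + (i : ZMod a))) a]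
    refine Fintype.prod_bijective _ ?_ _ _ fun _ => rfl
    rw [Fintype.bijective_iff_injective_and_card]
    refine ⟨fun i j hij => ?_, by simp⟩
    have h' : ((i : ℕ) : ZMod a) = ((j : ℕ) : ZMod a) := add_left_cancel hij
    have := congrArg ZMod.val h'
    rw [ZMod.val_natCast_of_lt i.2, ZMod.val_natCast_of_lt j.2] at this
    exact Fin.ext this
  · rw [mul_zero]

end shift

lemma rep_prod {a : ℕ} [NeZero a] {q : L} (hq : q ^ a = 1) (v : ZMod a → MvPolynomial σ L)
    (hv : ∀ r, (v r).IsHomogeneous 1) : Rep a q (∏ r, v r) := by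
  refine ⟨ZMod a, inferInstance, inferInstance, inferInstance, shift v,
    Matrix.diagonal fun s => C (q ^ s.val), ?_, ?_, shift_pow_self v, ?_, ?_⟩
  · intro i j
    rw [shift, Matrix.of_apply]
    split_ifs
    · exact hv j
    · exact isHomogeneous_zero _ _ _
  · intro i j
    rw [Matrix.diagonal_apply]
    split_ifs
    · exact isHomogeneous_C _ _
    · exact isHomogeneous_zero _ _ _
  · rw [Matrix.diagonal_pow, ← Matrix.diagonal_one]
    congr 1
    funext s
    rw [Pi.pow_apply, ← map_pow, ← pow_mul, mul_comm, pow_mul, hq, one_pow, map_one]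
  · ext s r
    rw [Matrix.diagonal_mul, Matrix.smul_apply, Matrix.mul_diagonal, shift, Matrix.of_apply]
    split_ifs with h
    · subst h
      have h1 : q ^ (r + 1).val = q ^ (r.val + 1) := by
        conv_rhs => rw [pow_eq_pow_mod _ hq]
        congr 1
        conv_lhs => rw [← ZMod.natCast_zmod_val r, ← Nat.cast_one, ← Nat.cast_add, ZMod.val_natCast]
      rw [h1, pow_succ, map_mul, smul_eq_C_mul]
      ring
    · simp

/-- Kronecker product with the identity on either side commutes with powers. -/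
lemma kron_pow {S ι κ : Type*} [CommRing S] [Fintype ι] [DecidableEq ι] [Fintype κ] [DecidableEq κ]
    (A : Matrix ι ι S) (B : Matrix κ κ S) : ∀ m : ℕ, (A ⊗ₖ B) ^ m = (A ^ m) ⊗ₖ (B ^ m) := by
  intro m
  induction m with
  | zero => rw [pow_zero, pow_zero, pow_zero, Matrix.one_kronecker_one]
  | succ m ih => rw [pow_succ, ih, pow_succ, pow_succ, Matrix.mul_kronecker_mul]

lemma rep_add {a : ℕ} (ha : 0 < a) {q : L} (hq : (Polynomial.cyclotomic a L).IsRoot q)
    {f g : MvPolynomial σ L} (hf : Rep a q f) (hg : Rep a q g) : Rep a q (f + g) := by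
  obtain ⟨ι, _, _, _, P, G, hP, hG, hPa, hGa, hGP⟩ := hf
  obtain ⟨κ, _, _, _, P', G', hP', hG', hPa', hGa', hGP'⟩ := hg
  refine ⟨ι × κ, inferInstance, inferInstance, inferInstance, P ⊗ₖ 1 + G ⊗ₖ P', G ⊗ₖ G',
    ?_, ?_, ?_, ?_, ?_⟩
  · intro i j
    simp only [Matrix.add_apply, Matrix.kronecker_apply]
    refine (?_ : IsHomogeneous _ 1).add ((hG _ _).mul (hP' _ _))
    have h1 : ((1 : Matrix κ κ (MvPolynomial σ L)) i.2 j.2).IsHomogeneous 0 := by
      rw [Matrix.one_apply]
      split_ifs
      exacts [isHomogeneous_one _ _, isHomogeneous_zero _ _ _]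
    exact (hP _ _).mul h1
  · intro i j
    rw [Matrix.kronecker_apply]
    exact (hG _ _).mul (hG' _ _)
  · have hcomm : G ⊗ₖ P' * (P ⊗ₖ (1 : Matrix κ κ (MvPolynomial σ L))) =
        q • (P ⊗ₖ (1 : Matrix κ κ (MvPolynomial σ L)) * (G ⊗ₖ P')) := by
      rw [← Matrix.mul_kronecker_mul, ← Matrix.mul_kronecker_mul, hGP, mul_one, one_mul,
        Matrix.smul_kronecker]
    rw [add_pow_of_root ha hq hcomm, kron_pow, kron_pow, hPa, one_pow, hGa, hPa',
      Matrix.smul_kronecker, Matrix.kronecker_smul, Matrix.one_kronecker_one, ← add_smul]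
  · rw [kron_pow, hGa, hGa', Matrix.one_kronecker_one]
  · rw [mul_add, add_mul, ← Matrix.mul_kronecker_mul, ← Matrix.mul_kronecker_mul,
      ← Matrix.mul_kronecker_mul, ← Matrix.mul_kronecker_mul, hGP, hGP', mul_one, one_mul,
      Matrix.smul_kronecker, Matrix.kronecker_smul, smul_add]

lemma rep_zero {a : ℕ} (ha : 0 < a) (q : L) : Rep a q (0 : MvPolynomial σ L) :=
  ⟨Unit, inferInstance, inferInstance, inferInstance, 0, 1, fun _ _ => isHomogeneous_zero _ _ _,
    fun i j => by rw [Subsingleton.elim i j, Matrix.one_apply_eq]; exact isHomogeneous_one _ _,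
    by rw [zero_pow ha.ne', zero_smul], one_pow _, by simp⟩

lemma exists_fin_prod : ∀ (a : ℕ) (e : σ →₀ ℕ), e.degree = a →
    ∃ v : Fin a → σ, ∏ i, (X (v i) : MvPolynomial σ L) = monomial e 1 := by
  intro a
  induction a with
  | zero =>
    intro e he
    rw [Finsupp.degree_eq_zero_iff] at he
    exact ⟨Fin.elim0, by simp [he]⟩
  | succ a ih =>
    intro e he
    obtain ⟨i, hi⟩ : ∃ i, e i ≠ 0 := by
      by_contra h
      push Not at h
      rw [show e = 0 from Finsupp.ext h] at he
      simp at he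
    have hle : Finsupp.single i 1 ≤ e := Finsupp.single_le_iff.2 (by omega)
    obtain ⟨e', rfl⟩ := le_iff_exists_add.1 hle
    obtain ⟨v, hv⟩ := ih e' (by rw [map_add, Finsupp.degree_single] at he; omega)
    refine ⟨Fin.cons i v, ?_⟩
    rw [Fin.prod_univ_succ]
    simp only [Fin.cons_zero, Fin.cons_succ, hv]
    rw [X, monomial_mul, one_mul]

lemma rep_monomial {a : ℕ} (ha : 0 < a) {q : L} (hq : q ^ a = 1) (e : σ →₀ ℕ) (he : e.degree = a)
    (c : L) : Rep a q (monomial e c) := by
  have : NeZero a := ⟨ha.ne'⟩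
  obtain ⟨v, hv⟩ := exists_fin_prod (L := L) a e he
  let w : Fin a → MvPolynomial σ L := Function.update (fun i => X (v i)) ⟨0, ha⟩ (C c * X (v ⟨0, ha⟩))
  let ε : Fin a ≃ ZMod a := Fintype.equivOfCardEq (by simp)
  have := rep_prod hq (fun r => w (ε.symm r)) fun r => ?_
  · convert this
    rw [Equiv.prod_comp ε.symm w, Finset.prod_update_of_mem (Finset.mem_univ _), mul_assoc,
      show X (v ⟨0, ha⟩) * ∏ x ∈ Finset.univ \ {⟨0, ha⟩}, X (v x) = monomial e (1 : L) by
        rw [← hv, mul_comm, Finset.sdiff_singleton_eq_erase, Finset.prod_erase_mul _ _ (Finset.mem_univ _)],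
      C_mul_monomial, mul_one]
  · simp only [w, Function.update_apply]
    split_ifs
    · simpa using (isHomogeneous_C σ c).mul (isHomogeneous_X L (v ⟨0, ha⟩))
    · exact isHomogeneous_X L _

theorem rep_of_isHomogeneous {a : ℕ} (ha : 0 < a) {q : L}
    (hq : (Polynomial.cyclotomic a L).IsRoot q) {f : MvPolynomial σ L} (hf : f.IsHomogeneous a) :
    Rep a q f := by
  classical
  rw [f.as_sum]
  refine Finset.sum_induction _ (Rep a q) (fun _ _ h h' => rep_add ha hq h h') (rep_zero ha q)
    fun e he => rep_monomial ha (pow_eq_one_of_root hq) e ?_ _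
  have := hf (MvPolynomial.mem_support_iff.1 he)
  rw [Finsupp.degree_eq_weight_one]
  exact this

/-- Commuting matrices of linear forms with prescribed powers. -/
theorem exists_commuting [IsAlgClosed L] : ∀ (c : ℕ) (a : Fin c → ℕ)
    (f : Fin c → MvPolynomial σ L), (∀ k, 0 < a k) → (∀ k, (f k).IsHomogeneous (a k)) →
    ∃ (ι : Type) (_ : Fintype ι) (_ : DecidableEq ι) (_ : Nonempty ι)
      (P : Fin c → Matrix ι ι (MvPolynomial σ L)),
      (∀ k, Lin (P k)) ∧ (∀ j k, P j * P k = P k * P j) ∧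
        ∀ k, P k ^ a k = f k • (1 : Matrix ι ι (MvPolynomial σ L)) := by
  intro c
  induction c with
  | zero =>
    intro a f _ _
    exact ⟨Unit, inferInstance, inferInstance, inferInstance, Fin.elim0, fun k => k.elim0,
      fun j => j.elim0, fun k => k.elim0⟩
  | succ c ih =>
    intro a f ha hf
    obtain ⟨κ, _, _, _, Q, hQ, hQc, hQp⟩ := ih (Fin.tail a) (Fin.tail f) (fun k => ha _)
      (fun k => hf _)
    obtain ⟨q, hq⟩ := IsAlgClosed.exists_root (Polynomial.cyclotomic (a 0) L)
      (Polynomial.degree_cyclotomic_pos (a 0) L (ha 0)).ne'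
    obtain ⟨ι, _, _, _, P, G, hP, -, hPa, -, -⟩ := rep_of_isHomogeneous (ha 0) hq (hf 0)
    have hlin : ∀ {μ ν : Type} [DecidableEq ν] (A : Matrix μ μ (MvPolynomial σ L)), Lin A →
        ∀ i j : μ × ν, ((A ⊗ₖ (1 : Matrix ν ν (MvPolynomial σ L))) i j).IsHomogeneous 1 ∧
          (((1 : Matrix ν ν (MvPolynomial σ L)) i.2 j.2) * A i.1 j.1).IsHomogeneous 1 := by
      intro μ ν _ A hA i j
      rw [Matrix.kronecker_apply, mul_comm (A i.1 j.1), Matrix.one_apply]
      split_ifs
      · rw [one_mul]; exact ⟨hA _ _, hA _ _⟩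
      · rw [zero_mul]; exact ⟨isHomogeneous_zero _ _ _, isHomogeneous_zero _ _ _⟩
    refine ⟨ι × κ, inferInstance, inferInstance, inferInstance,
      Fin.cons (P ⊗ₖ 1) fun k => 1 ⊗ₖ Q k, fun k => ?_, fun j k => ?_, fun k => ?_⟩
    · refine Fin.cases ?_ (fun k => ?_) k
      · exact fun i j => (hlin P hP i j).1
      · intro i j
        rw [Fin.cons_succ, Matrix.kronecker_apply]
        exact (hlin (Q k) (hQ k) (i.2, i.1) (j.2, j.1)).2
    · refine Fin.cases ?_ (fun j => ?_) j <;> refine Fin.cases ?_ (fun k => ?_) k <;>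
        simp only [Fin.cons_zero, Fin.cons_succ, ← Matrix.mul_kronecker_mul, mul_one, one_mul]
      exact congrArg ((1 : Matrix ι ι (MvPolynomial σ L)) ⊗ₖ ·) (hQc j k)
    · refine Fin.cases ?_ (fun k => ?_) k <;>
        simp only [Fin.cons_zero, Fin.cons_succ, kron_pow, one_pow]
      · rw [hPa, Matrix.smul_kronecker, Matrix.one_kronecker_one]
      · rw [show Q k ^ a k.succ = f k.succ • (1 : Matrix κ κ (MvPolynomial σ L)) from hQp k,
          Matrix.kronecker_smul, Matrix.one_kronecker_one]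

end Vale.Agent.P200.Avg
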